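import Vale.Agent.P273.H730.One1
import Vale.Agent.P273.H401.Ch1
import Vale.Agent.P273.H752.Cpt1
import Vale.Agent.P273.H828.Base1
import Vale.Agent.P273.H828.FamMem
import Vale.Agent.P273.H973.Germ

/-!
# P273, row 4 (ASY1), one mark half: from `InReg` to `Adm`, `InNeck`, `InCore`

`bs R k (toSp c p)` (H752) is the merged configuration, `zh c p` the half difference.
-/

noncomputable section

namespace Vale.Agent.P273.H205

open Set Filter H95 H973 H879 H730
open H681 (C6 XX)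
open H752 (bs bs_castSucc bs_jo jo oj_jo jo_ne1 jo_ne2)
open scoped Topology ContDiff

variable {R : Region1} {m : Fin (R.n + 1)} {k : Fin 5} {c : ℝ} {p : Co1 R m}

theorem csq_two (z : ℂ) : csq z ^ 2 = z := by
  have h := Complex.cpow_nat_inv_pow z (two_ne_zero)
  rw [csq, one_div]
  exact_mod_cast h

/-- the neck coordinates of a mark -/
def Xn (R : Region1) (q : R.Sp) (j : L) : ℂ := R.XX q (R.rk j)
def Yn (R : Region1) (q : R.Sp) (j : L) : ℂ := R.YY q (R.rk j)

/-- the roots of a point of the chart -/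
theorem toE_bd (k : Fin 5) (c : ℝ) (p : Co1 R m) :
    (toE k c p).1 = bd k (bs R k (toSp c p)) (zh c p) := by
  funext j
  show H828.pr k (fun j => R.oth (toSp c p) (oj k j)) (R.ctr (toSp c p)) (zh c p) j =
    H828.pr k (bs R k (toSp c p)) (bs R k (toSp c p) k.castSucc) (zh c p) j
  rw [bs_castSucc]
  unfold H828.pr
  split_ifs with h1 h2
  · rfl
  · rfl
  · simp only [bs, H828.pr, if_neg h1, if_neg h2]

theorem XX_mul_YY (q : R.Sp) (i : ℕ) : R.XX q i * R.YY q i = R.eps q := by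
  unfold Region1.XX Region1.YY Region1.eps
  rw [← Finset.prod_mul_distrib]
  refine Finset.prod_congr rfl fun g _ => ?_
  by_cases h : (g : ℕ) ≤ i
  · rw [if_pos h, if_neg (not_lt.2 h), mul_one]
  · rw [if_neg h, if_pos (not_le.1 h), one_mul]

theorem Xn_mul_Yn (j : L) : Xn R (toSp c p) j * Yn R (toSp c p) j = zh c p ^ 2 := by
  unfold Xn Yn
  rw [XX_mul_YY, H401.Ch1.eps_toSp]

/-- the coordinate of a neck mark -/
theorem pos_neck {j : L} (hj : R.nk j = true) (q : R.Sp) :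
    R.pos q j = R.ctr q + (Xn R q j + Yn R q j) / 2 := by
  unfold Region1.pos
  rw [dif_neg (by rw [hj]; simp)]
  rfl

theorem toE_neck {j : L} (hj : R.nk j = true) : (toE k c p).2 j =
    xn k (bs R k (toSp c p)) (Xn R (toSp c p) j) (Yn R (toSp c p) j) := by
  show R.pos (toSp c p) j = _
  rw [pos_neck hj, xn, bs_castSucc]

/-- the polynomial in factors -/
theorem pol_toE (x : ℂ) : pol false (rts (toE k c p).1) x =
    ((x - R.ctr (toSp c p)) ^ 2 - zh c p ^ 2) * ∏ l : Fin 4, (x - R.oth (toSp c p) l) := by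
  rw [pol_false]
  have h := congrArg (Polynomial.eval x) (H401.Ch1.prod_pr k (R.oth (toSp c p))
    (R.ctr (toSp c p)) (zh c p))
  simp only [Polynomial.eval_prod, Polynomial.eval_sub, Polynomial.eval_X, Polynomial.eval_C,
    Polynomial.eval_mul, Polynomial.eval_pow] at h
  exact h

/-- the sheets are points of the curve -/
theorem onC_of {S : L → Bool} {g : ℂ} {v : L → ℂ}
    (hne : ∀ l, R.ctr (toSp c p) ≠ R.oth (toSp c p) l)
    (hfar : ∀ j, S j = true → R.nk j = false) (hsh : R.isSheet S (toSp c p) g v)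
    (hstd : ∀ j, R.sht (toSp c p) g v j ≠ 0) :
    OnC S (rts (toE k c p).1) (toE k c p).2 (R.sht (toSp c p) g v) := by
  intro j
  refine ⟨?_, hstd j⟩
  rcases Bool.eq_false_or_eq_true (R.nk j) with hj | hj
  · have hS : S j = false := by
      rcases Bool.eq_false_or_eq_true (S j) with h | h
      · have := hfar j h
        rw [hj] at this
        exact absurd this (by simp)
      · exact h
    rw [hS, pol_toE]
    show _ = ((R.pos (toSp c p) j - _) ^ 2 - _) * ∏ l : Fin 4, (R.pos (toSp c p) j - _)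
    have h1 : R.sht (toSp c p) g v j = g * (∏ l : Fin 4,
        csq ((R.pos (toSp c p) j - R.oth (toSp c p) l) /
          (R.ctr (toSp c p) - R.oth (toSp c p) l))) *
        (Xn R (toSp c p) j - Yn R (toSp c p) j) / 2 := by
      unfold Region1.sht
      rw [if_pos hj]
      rfl
    have h2 : (∏ l : Fin 4, csq ((R.pos (toSp c p) j - R.oth (toSp c p) l) /
          (R.ctr (toSp c p) - R.oth (toSp c p) l))) ^ 2 * g ^ 2 =
        ∏ l : Fin 4, (R.pos (toSp c p) j - R.oth (toSp c p) l) := by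
      rw [hsh.1, ← Finset.prod_pow, ← Finset.prod_mul_distrib]
      refine Finset.prod_congr rfl fun l _ => ?_
      rw [csq_two, div_mul_cancel₀ _ (sub_ne_zero.2 (hne l))]
    have h3 : (R.pos (toSp c p) j - R.ctr (toSp c p)) ^ 2 - zh c p ^ 2 =
        ((Xn R (toSp c p) j - Yn R (toSp c p) j) / 2) ^ 2 := by
      rw [pos_neck hj, ← Xn_mul_Yn j]
      ring
    rw [h3, ← h2, h1]
    ring
  · have h1 : R.sht (toSp c p) g v j = v j := by
      unfold Region1.sht
      rw [if_neg (by rw [hj]; simp)]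
    rw [h1, hsh.2 j hj, H401.Ch1.cf_toSp k]
    rfl

/-! ### sizes -/

theorem norm_zh (hc : 0 < c) (p : Co1 R m) : ‖zh c p‖ = c * Real.exp (-(p.2.2.1 ()) / 2) := by
  unfold zh
  rw [norm_mul, Complex.norm_real, Real.norm_of_nonneg hc.le, Complex.norm_exp]
  congr 2
  simp

theorem zh_ne (hc : 0 < c) (p : Co1 R m) : zh c p ≠ 0 := by
  rw [← norm_pos_iff, norm_zh hc]
  positivity

theorem yl_zh (hc : 0 < c) (p : Co1 R m) : yl c (zh c p) = p.2.2.1 () := by
  unfold yl
  rw [norm_zh hc]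
  have h : c / (c * Real.exp (-(p.2.2.1 ()) / 2)) = Real.exp (p.2.2.1 () / 2) := by
    rw [neg_div, Real.exp_neg]
    field_simp
  rw [h, Real.log_exp]
  ring

theorem zh_angle (hc : 0 < c) (hl : -(2 * Real.pi) ≤ p.2.2.2.1 ()) (hr : p.2.2.2.1 () ≤ 0) :
    (zh c p).re = 0 → (zh c p).im < 0 := by
  have e : zh c p = ((c * Real.exp (-(p.2.2.1 ()) / 2) : ℝ) : ℂ) *
      Complex.exp (((p.2.2.2.1 () / 2 : ℝ) : ℂ) * Complex.I) := by
    unfold zh
    rw [show ((-(p.2.2.1 () : ℂ) + (p.2.2.2.1 () : ℂ) * Complex.I) / 2) =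
      ((-(p.2.2.1 ()) / 2 : ℝ) : ℂ) + ((p.2.2.2.1 () / 2 : ℝ) : ℂ) * Complex.I by
        push_cast; ring, Complex.exp_add]
    push_cast
    ring
  have hpos : 0 < c * Real.exp (-(p.2.2.1 ()) / 2) := by positivity
  rw [e, Complex.re_ofReal_mul, Complex.im_ofReal_mul, Complex.exp_ofReal_mul_I_re,
    Complex.exp_ofReal_mul_I_im]
  intro h
  have hcos : Real.cos (p.2.2.2.1 () / 2) = 0 := (mul_eq_zero.1 h).resolve_left hpos.ne'
  have hsin : Real.sin (p.2.2.2.1 () / 2) ≤ 0 :=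
    Real.sin_nonpos_of_nonpos_of_neg_pi_le (by linarith) (by linarith)
  have h3 := Real.sin_sq_add_cos_sq (p.2.2.2.1 () / 2)
  rw [hcos] at h3
  have h4 : Real.sin (p.2.2.2.1 () / 2) ≠ 0 := fun h => by rw [h] at h3; norm_num at h3
  exact mul_neg_of_pos_of_neg hpos (lt_of_le_of_ne hsin h4)

/-! ### admissible roots -/

/-- small pairs near a merged configuration -/
theorem exists_bd_mem (k : Fin 5) {q₀ : C6} (h0 : q₀ ∈ H828.XD k) : ∃ U ∈ 𝓝 q₀, ∃ δ > 0,
    ∀ q ∈ U, ∀ d : ℂ, ‖d‖ < δ → (d.re = 0 → d.im < 0) → bd k q d ∈ XX := by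
  have hcont : Continuous fun p : C6 × ℂ => H828.JL k p.1 + H828.IL k p.2 := by fun_prop
  have hW : IsOpen ((fun p : C6 × ℂ => H828.JL k p.1 + H828.IL k p.2) ⁻¹' H828.XP k) :=
    (H828.isOpen_XP k).preimage hcont
  have hmem : (q₀, (0 : ℂ)) ∈ (fun p : C6 × ℂ => H828.JL k p.1 + H828.IL k p.2) ⁻¹'
      H828.XP k := by
    show H828.JL k q₀ + H828.IL k 0 ∈ H828.XP k
    rw [map_zero, add_zero]
    have : H828.JL k q₀ = q₀ := by
      funext j
      simp only [H828.JL, ContinuousLinearMap.coe_pi', ContinuousLinearMap.proj_apply]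
      by_cases h : j = k.succ
      · rw [if_pos h, h]; exact h0.1
      · rw [if_neg h]
    rw [this]
    exact H828.XD_subset_XP k h0
  obtain ⟨u, v, hu, hv, hqu, h0v, huv⟩ := isOpen_prod_iff.1 hW q₀ 0 hmem
  obtain ⟨δ, hδ, hball⟩ := Metric.isOpen_iff.1 hv 0 h0v
  refine ⟨u, hu.mem_nhds hqu, δ, hδ, fun q hq d hd hd' => ?_⟩
  have hm : H828.pr k q (q k.castSucc) d ∈ H828.XP k := by
    rw [H828.pr_eq]
    exact huv (show (q, d) ∈ u ×ˢ v from ⟨hq, hball (by simpa using hd)⟩)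
  refine H828.mem_XX_of hm ?_
  have hne := H828.castSucc_ne_succ k
  simp only [bd, H828.pr, hne.symm, if_true, if_false, Complex.add_re, Complex.sub_re,
    Complex.add_im, Complex.sub_im]
  intro h
  have := hd' (by linarith)
  linarith

/-- **the roots of a point of the region are admissible** -/
theorem adm_of {U K : Set C6} {δ M M₀ R₀ : ℝ} {S : L → Bool} {g : ℂ} {v : L → ℂ} (hc : 0 < c)
    (hU : ∀ q ∈ U, ∀ d : ℂ, ‖d‖ < δ → (d.re = 0 → d.im < 0) → bd k q d ∈ XX)
    (hM : c * Real.exp (-M₀ / 2) < δ) (hMM : M ≤ M₀) (hK : K ⊆ U ∩ H828.XD k)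
    (hp : InReg k K c R₀ M₀ S p g v) : Adm k U c M (bs R k (toSp c p)) (zh c p) where
  qU := (hK hp.base).1
  qX := (hK hp.base).2
  d0 := zh_ne hc p
  len := by
    rw [yl_zh hc]
    exact hMM.trans hp.y
  mem := by
    refine hU _ (hK hp.base).1 _ ?_ (zh_angle hc hp.al.1 hp.al.2)
    rw [norm_zh hc]
    refine lt_of_le_of_lt ?_ hM
    have := hp.y
    gcongr

theorem ctr_ne {K : Set C6} {M₀ R₀ : ℝ} {S : L → Bool} {g : ℂ} {v : L → ℂ}
    (hK : K ⊆ H828.XD k) (hp : InReg k K c R₀ M₀ S p g v) (l : Fin 4) :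
    R.ctr (toSp c p) ≠ R.oth (toSp c p) l := by
  have hq : bs R k (toSp c p) ∈ H828.XD k := hK hp.base
  rw [← bs_castSucc (k := k), ← bs_jo (k := k)]
  rcases lt_or_gt_of_ne (jo_ne1 k l) with h | h
  · exact (H752.ne_of_XD hq h (Or.inl (jo_ne1 k l))).symm
  · exact H752.ne_of_XD hq h (Or.inr (jo_ne2 k l))

/-- **the marks are points of the curve** -/
theorem onC_inReg {K : Set C6} {M₀ R₀ : ℝ} {S : L → Bool} {g : ℂ} {v : L → ℂ}
    (hK : K ⊆ H828.XD k) (hp : InReg k K c R₀ M₀ S p g v) :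
    OnC S (rts (toE k c p).1) (toE k c p).2 (R.sht (toSp c p) g v) :=
  onC_of (ctr_ne hK hp) hp.far hp.sheet hp.std.2

theorem S_neck {K : Set C6} {M₀ R₀ : ℝ} {S : L → Bool} {g : ℂ} {v : L → ℂ}
    (hp : InReg k K c R₀ M₀ S p g v) {j : L} (hj : R.nk j = true) : S j = false := by
  rcases Bool.eq_false_or_eq_true (S j) with h | h
  · have := hp.far j h
    rw [hj] at this
    exact absurd this (by simp)
  · exact h

/-- **a neck mark** -/
theorem inNeck_of {K : Set C6} {M₀ R₀ : ℝ} {S : L → Bool} {g : ℂ} {v : L → ℂ}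
    (hc : 0 < c) (h1 : c ≤ 1) (h0 : 0 ≤ M₀) (hK : K ⊆ H828.XD k)
    (hp : InReg k K c R₀ M₀ S p g v) {j : L} (hj : R.nk j = true) :
    InNeck k c (bs R k (toSp c p)) (zh c p) (Xn R (toSp c p) j) (Yn R (toSp c p) j)
      (R.sht (toSp c p) g v j) where
  hXY := Xn_mul_Yn j
  hX := by
    have hy : 0 ≤ p.2.2.1 () := h0.trans hp.y
    exact H752.norm_XX_le (fun g => (H752.norm_gap_le hp.inr hy g).trans
      (H752.norm_cw1_le hc h1 g)) ((H752.norm_gap_le hp.inr hy _).trans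
      (H752.norm_cw1_zero hc h1)) _
  hY := by
    have hy : 0 ≤ p.2.2.1 () := h0.trans hp.y
    exact H752.norm_YY_le (fun g => (H752.norm_gap_le hp.inr hy g).trans
      (H752.norm_cw1_le hc h1 g)) ((H752.norm_gap_le hp.inr hy _).trans
      (H752.norm_cw1_last hc h1)) (R.rk_lt j hj)
  hv := by
    have h := onC_inReg hK hp j
    rw [S_neck hp hj, toE_bd, toE_neck hj] at h
    exact h

/-- **a core mark** -/
theorem inCore_of {K : Set C6} {M₀ R₀ : ℝ} {S : L → Bool} {g : ℂ} {v : L → ℂ}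
    (hK : K ⊆ H828.XD k) (hp : InReg k K c R₀ M₀ S p g v) {j : L} (hj : R.nk j = false) :
    InCore k c R₀ (bs R k (toSp c p)) (zh c p) (S j) (R.pos (toSp c p) j)
      (R.sht (toSp c p) g v j) where
  zone := by
    have h := hp.zone j hj
    rw [bs_castSucc]
    exact h
  hv := by
    have h := onC_inReg hK hp j
    rw [toE_bd] at h
    exact h

end Vale.Agent.P273.H205

end
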