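import Vale.Agent.P273.H205.Ad1
import Vale.Agent.P273.H578.Bridge

/-!
# P273, row 4 (ASY1): the bridge data of 578 for any smooth map, and at one node

`brd_of_smooth`: for a smooth map `φ` to (roots, marks) and sheets `w` of the point `φ p`, the
branch `brE` through `w` along `φ` is a bridge. `brd_one`: the chart of a one-node region.
-/

noncomputable section

namespace Vale.Agent.P273.H205

open Set Filter H95 H973 H879 H730 H578
open H681 (C6 XX)
open scoped Topology ContDiff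

section Gen

variable {X : Type*} [NormedAddCommGroup X] [NormedSpace ℝ X] {S : L → Bool} {φ : X → E} {p : X}
  {w : L → ℂ}

/-- the branch of the sheets through `w`, along `φ` -/
def sgO (S : L → Bool) (φ : X → E) (p : X) (w : L → ℂ) (q : X) : L → ℂ := H973.brE S (φ p) w (φ q)

omit [NormedAddCommGroup X] [NormedSpace ℝ X] in
theorem sgO_self (h : OnC S (rts (φ p).1) (φ p).2 w) : sgO S φ p w p = w := brE_self h

/-- **any smooth map to (roots, marks) over `XX` is a bridge** -/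
theorem brd_of_smooth (hφ : ContDiffAt ℝ ∞ φ p) (hX : (φ p).1 ∈ XX)
    (h : OnC S (rts (φ p).1) (φ p).2 w) : Brd S φ (sgO S φ p w) p where
  smφ := hφ
  smσ j := ContDiffAt.comp p (g := fun e => H973.brE S (φ p) w e j)
    ((brE_BrE hX h).smooth j) hφ
  mem := hX
  on := by
    filter_upwards [hφ.continuousAt.eventually (brE_BrE hX h).ev] with q hq
    exact hq.2.1

end Gen

variable {R : Region1} {m : Fin (R.n + 1)} {k : Fin 5} {c : ℝ} {p : Co1 R m} {S : L → Bool}
  {g : ℂ} {v : L → ℂ} {M₀ R₀ : ℝ}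

/-- the sheets along the chart, through the sheets of the point `p` -/
abbrev sg1 (R : Region1) (m : Fin (R.n + 1)) (k : Fin 5) (c : ℝ) (S : L → Bool) (p : Co1 R m)
    (g : ℂ) (v : L → ℂ) : Co1 R m → L → ℂ := sgO S (toE k c) p (R.sht (toSp c p) g v)

/-- **the bridge at one node** -/
theorem brd_at {K : Set C6} (hK : K ⊆ H828.XD k) (hp : InReg k K c R₀ M₀ S p g v)
    (hX : (toE k c p).1 ∈ XX) :
    Brd S (toE k c) (sg1 R m k c S p g v) p ∧ sg1 R m k c S p g v p = R.sht (toSp c p) g v :=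
  ⟨brd_of_smooth ((H401.Ch1.contDiff_toE k c).contDiffAt) hX (onC_inReg hK hp),
    sgO_self (onC_inReg hK hp)⟩

/-- **the bridge at one node, uniformly** -/
theorem brd_one (k : Fin 5) {q₀ : C6} (h0 : q₀ ∈ H828.XD k) : ∃ U ∈ 𝓝 q₀, ∀ c : ℝ, 0 < c →
    ∃ M₀ : ℝ, 0 < M₀ ∧ ∀ (M R₀ : ℝ) (R : Region1) (m : Fin (R.n + 1)) (S : L → Bool)
      (p : Co1 R m) (g : ℂ) (v : L → ℂ), M₀ ≤ M → InReg k (U ∩ H828.XD k) c R₀ M S p g v →
      Adm k U c M (H752.bs R k (toSp c p)) (zh c p) ∧ (toE k c p).1 ∈ XX ∧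
      OnC S (rts (toE k c p).1) (toE k c p).2 (R.sht (toSp c p) g v) ∧
      Brd S (toE k c) (sg1 R m k c S p g v) p ∧
      sg1 R m k c S p g v p = R.sht (toSp c p) g v := by
  obtain ⟨U, hU, δ, hδ, hbd⟩ := exists_bd_mem k h0
  refine ⟨U, hU, fun c hc => ?_⟩
  obtain ⟨M3, hM3⟩ : ∃ M3 : ℝ, c * Real.exp (-M3 / 2) < δ := by
    refine ⟨-(2 * Real.log (δ / (2 * c))), ?_⟩
    have e : -(-(2 * Real.log (δ / (2 * c)))) / 2 = Real.log (δ / (2 * c)) := by ring
    rw [e, Real.exp_log (by positivity)]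
    have e2 : c * (δ / (2 * c)) = δ / 2 := by field_simp
    rw [e2]
    linarith
  refine ⟨max M3 1, lt_max_of_lt_right one_pos, fun M R₀ R m S p g v hM hp => ?_⟩
  have hA : Adm k U c M (H752.bs R k (toSp c p)) (zh c p) := by
    refine adm_of hc hbd ?_ le_rfl (fun q hq => hq) hp
    refine lt_of_le_of_lt ?_ hM3
    have : M3 ≤ M := (le_max_left _ _).trans hM
    gcongr
  have hX : (toE k c p).1 ∈ XX := by
    rw [toE_bd]
    exact hA.mem
  have hK : U ∩ H828.XD k ⊆ H828.XD k := fun q hq => hq.2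
  exact ⟨hA, hX, onC_inReg hK hp, (brd_at hK hp hX).1, (brd_at hK hp hX).2⟩

end Vale.Agent.P273.H205

end
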