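import Vale.Agent.P273.H205.Ad1
import Vale.Agent.P273.H828.Dir2
import Vale.Agent.P273.H213.DirC

/-!
# P273, row 4 (ASY1), one mark half: the legs of the one mark form in the chart of a one-node region

`legO O k c S p g v ξ j w` = the one mark form of the mark `j` on the derivative of `toE` in the
direction `w`. `eta_legs`: the bounds of the three types of classes by the costs.
-/

noncomputable section

namespace Vale.Agent.P273.H205

open Set Filter H95 H973 H879 H730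
open H681 (C6 XX)
open H828 (qb Xj Yj lX lY lam NE evec_ne)
open scoped Topology ContDiff

variable {R : Region1} {m : Fin (R.n + 1)}

/-- the leg of the one mark form -/
def legO (O : One) (k : Fin 5) (c : ℝ) (S : L → Bool) (p : Co1 R m) (g : ℂ) (v : L → ℂ)
    (ξ : Fin 6 → ℝ) (j : L) (w : Co1 R m) : ℝ :=
  O.η ξ (S j) (H973.prj j (toE k c p)) (R.sht (toSp c p) g v j)
    (H973.prj j (fderiv ℝ (toE k c) p w))

section Legs

variable {O : One} {k : Fin 5} {c : ℝ} {S : L → Bool} {p : Co1 R m} {g : ℂ} {v : L → ℂ}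
  {K : Set C6} {M₀ R₀ : ℝ} {j : L}

/-- the leg of a neck mark, in the form of `NeckO` -/
theorem legO_neck (hS : S j = false) (hj : R.nk j = true) (ξ : Fin 6 → ℝ) (w : Co1 R m) :
    legO O k c S p g v ξ j w = O.η ξ false
      (bd k (qb k p) (zh c p), xn k (qb k p) (Xj c p j) (Yj c p j)) (R.sht (toSp c p) g v j)
      (nv k (qb k w) (zh c p) (Xj c p j) (Yj c p j) (lX R m (R.rk j) w) (lY R m (R.rk j) w)) := by
  unfold legO
  rw [hS]
  have e1 : H973.prj j (toE k c p) =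
      (bd k (qb k p) (zh c p), xn k (qb k p) (Xj c p j) (Yj c p j)) := by
    rw [prj_apply, H828.toE_roots, H828.toE_neck k c p hj]
  have e2 : H973.prj j (fderiv ℝ (toE k c) p w) = nv k (qb k w) (zh c p) (Xj c p j) (Yj c p j)
      (lX R m (R.rk j) w) (lY R m (R.rk j) w) := by
    rw [prj_apply]
    exact H828.fderiv_neck k c p w hj
  rw [e1, e2]

/-- the leg of a core mark, in the form of `CoreO` -/
theorem legO_core (hj : R.nk j = false) (ξ : Fin 6 → ℝ) (w : Co1 R m) :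
    legO O k c S p g v ξ j w = O.η ξ (S j) (bd k (qb k p) (zh c p), R.pos (toSp c p) j)
      (R.sht (toSp c p) g v j) (bw k (qb k w) (zh c p) (lam R m w / 2),
        w.2.2.2.2 (Sum.inl ⟨j, hj⟩)) := by
  unfold legO
  have e1 : H973.prj j (toE k c p) = (bd k (qb k p) (zh c p), R.pos (toSp c p) j) := by
    rw [prj_apply, H828.toE_roots]
    rfl
  have e2 : H973.prj j (fderiv ℝ (toE k c) p w) =
      (bw k (qb k w) (zh c p) (lam R m w / 2), w.2.2.2.2 (Sum.inl ⟨j, hj⟩)) := by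
    rw [prj_apply]
    exact H828.fderiv_core k c p w hj
  rw [e1, e2]

/-! ### the directions -/

theorem norm_dz_le_one (d : Dir1 R m) (a : R.Cm ⊕ Fin 5) : ‖(evec p d).2.2.2.2 a‖ ≤ 1 := by
  cases d with
  | u f => simp [evec, H732.Reg.vec]
  | ph f => simp [evec, H732.Reg.vec]
  | y u => simp [evec, H732.Reg.eul]
  | al u => simp [evec, H732.Reg.vec]
  | re b => exact H828.norm_single_le _ _ _ (by simp)
  | im b => exact H828.norm_single_le _ _ _ (by simp)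

theorem norm_dz_le (hy : 1 ≤ p.2.2.1 ()) (d : Dir1 R m) (a : R.Cm ⊕ Fin 5) :
    ‖(evec p d).2.2.2.2 a‖ ≤ cst p d := by
  have h0 := H401.Ch1.cst_nonneg (p := p) (by linarith) d
  cases d with
  | u f => simpa [evec, H732.Reg.vec] using h0
  | ph f => simpa [evec, H732.Reg.vec] using h0
  | y u => simpa [evec, H732.Reg.eul] using h0
  | al u => simpa [evec, H732.Reg.vec] using h0
  | re b => exact norm_dz_le_one _ _
  | im b => exact norm_dz_le_one _ _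

theorem norm_lam_le_one (d : Dir1 R m) : ‖lam R m (evec p d)‖ ≤ 1 := by
  cases d with
  | u f => show ‖lam R m ((wr R m).vec (.u f))‖ ≤ 1; rw [H828.lam_u]; simp
  | ph f => show ‖lam R m ((wr R m).vec (.ph f))‖ ≤ 1; rw [H828.lam_ph]; simp
  | y u => show ‖lam R m ((wr R m).eul p ())‖ ≤ 1; rw [H828.lam_y]; simp
  | al u => show ‖lam R m ((wr R m).vec (.al ()))‖ ≤ 1; rw [H828.lam_al]; simp
  | re b => show ‖lam R m ((wr R m).vec (.re b))‖ ≤ 1; rw [H828.lam_re]; simp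
  | im b => show ‖lam R m ((wr R m).vec (.im b))‖ ≤ 1; rw [H828.lam_im]; simp

theorem inv_le_cst (hy : 1 ≤ p.2.2.1 ()) (d : Dir1 R m) : (p.2.2.1 ())⁻¹ ≤ cst p d :=
  H213.inv_le_cst hy d

/-- **neck, weight of the classes without period on the vanishing cycle** -/
theorem neck_T1 (hp : (wr R m).Inr p) (hy : 1 ≤ p.2.2.1 ()) (hc : 0 < c) (h1 : c ≤ 1)
    (k : Fin 5) (hj : R.nk j = true) {d : Dir1 R m} (hd : NE d) :
    ‖qb k (evec p d)‖ + (‖Xj c p j‖ + (p.2.2.1 ())⁻¹) * ‖lX R m (R.rk j) (evec p d)‖ +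
      (‖Yj c p j‖ + (p.2.2.1 ())⁻¹) * ‖lY R m (R.rk j) (evec p d)‖ ≤ 33 * cst p d := by
  have hy0 : (0 : ℝ) ≤ p.2.2.1 () := by linarith
  have hi : 0 ≤ (p.2.2.1 ())⁻¹ := inv_nonneg.2 hy0
  have h0 := H401.Ch1.cst_nonneg (p := p) hy0 d
  have hq := H828.norm_qb_evec_le (p := p) k hy d
  have hsq := H213.cst_sq_le hp hy d
  have hsq0 : 0 ≤ cst p d ^ 2 := sq_nonneg _
  rw [evec_ne hd]
  rw [evec_ne hd] at hq
  cases d with
  | u f =>
    have e1 : (‖Xj c p j‖ + (p.2.2.1 ())⁻¹) * ‖lX R m (R.rk j) ((wr R m).vec (.u f))‖ ≤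
        (1 + c) * cst p (.u f) ^ 2 :=
      H213.wgt_u_sq hy hc (fun h => (H828.moved_u hp hy0 hc hj f (H828.lX_u_ne h)).1)
        (H828.norm_lX_le _ _)
    have e2 : (‖Yj c p j‖ + (p.2.2.1 ())⁻¹) * ‖lY R m (R.rk j) ((wr R m).vec (.u f))‖ ≤
        (1 + c) * cst p (.u f) ^ 2 := by
      refine H213.wgt_u_sq hy hc (fun h => (H828.moved_u hp hy0 hc hj f (H828.lX_u_ne ?_)).2)
        (H828.norm_lY_le _ _)
      rw [H828.lY_u_eq] at h
      exact neg_ne_zero.1 h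
    have e3 : (1 + c) * cst p (.u f) ^ 2 ≤ 2 * cst p (.u f) :=
      mul_le_mul (by linarith) hsq hsq0 (by norm_num)
    linarith
  | ph f =>
    have e1 : (‖Xj c p j‖ + (p.2.2.1 ())⁻¹) * ‖lX R m (R.rk j) ((wr R m).vec (.ph f))‖ ≤
        (1 + c) * cst p (.ph f) ^ 2 :=
      H213.wgt_ph_sq hy hc (fun h => (H828.moved_u hp hy0 hc hj f (H828.lX_ph_ne h)).1)
        (H828.norm_lX_le _ _)
    have e2 : (‖Yj c p j‖ + (p.2.2.1 ())⁻¹) * ‖lY R m (R.rk j) ((wr R m).vec (.ph f))‖ ≤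
        (1 + c) * cst p (.ph f) ^ 2 := by
      refine H213.wgt_ph_sq hy hc (fun h => (H828.moved_u hp hy0 hc hj f (H828.lX_ph_ne ?_)).2)
        (H828.norm_lY_le _ _)
      rw [H828.lY_ph_eq] at h
      exact neg_ne_zero.1 h
    have e3 : (1 + c) * cst p (.ph f) ^ 2 ≤ 2 * cst p (.ph f) :=
      mul_le_mul (by linarith) hsq hsq0 (by norm_num)
    linarith
  | y u => exact absurd hd (by simp [NE])
  | al u =>
    have e1 : (‖Xj c p j‖ + (p.2.2.1 ())⁻¹) * ‖lX R m (R.rk j) ((wr R m).vec (.al u))‖ ≤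
        (1 + 15 * c) * cst p (.al u) ^ 2 :=
      H213.wgt_al_sq hp hy hc () (H828.moved_al hp hy0 hc hj).1 (H828.norm_lX_le _ _)
    have e2 : (‖Yj c p j‖ + (p.2.2.1 ())⁻¹) * ‖lY R m (R.rk j) ((wr R m).vec (.al u))‖ ≤
        (1 + 15 * c) * cst p (.al u) ^ 2 :=
      H213.wgt_al_sq hp hy hc () (H828.moved_al hp hy0 hc hj).2 (H828.norm_lY_le _ _)
    have e3 : (1 + 15 * c) * cst p (.al u) ^ 2 ≤ 16 * cst p (.al u) :=
      mul_le_mul (by linarith) hsq hsq0 (by norm_num)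
    linarith
  | re a =>
    rw [H828.lX_re, H828.lY_re, norm_zero, mul_zero, mul_zero, add_zero, add_zero]
    linarith
  | im a =>
    rw [H828.lX_im, H828.lY_im, norm_zero, mul_zero, mul_zero, add_zero, add_zero]
    linarith

theorem NE_or (d : Dir1 R m) : NE d ∨ d = .y () := by
  cases d with
  | y u => exact Or.inr rfl
  | _ => exact Or.inl trivial

end Legs

/-- **the legs of the one mark form, by the costs**, for the three types of classes -/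
def EtaLegs (O : One) : Prop := ∀ k : Fin 5, ∀ q₀ ∈ H828.XD k, ∃ U ∈ 𝓝 q₀, ∃ c₀ > 0,
  ∀ c, 0 < c → c ≤ c₀ → ∃ R₁ > 0, ∀ R₀ ≥ R₁, ∃ M₀ B : ℝ, 0 < M₀ ∧ 0 < B ∧
  ∀ (R : Region1) (m : Fin (R.n + 1)) (S : L → Bool) (p : Co1 R m) (g : ℂ) (v : L → ℂ),
    InReg k (U ∩ H828.XD k) c R₀ M₀ S p g v → ∀ (j : L) (d : Dir1 R m),
      (∀ ξ : Fin 6 → ℝ, IsCl ξ →
        |legO O k c S p g v ξ j (evec p d)| ≤
          B * ‖ξ‖ * (Real.sqrt (p.2.2.1 ()) * H879.cst p d) ∧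
        (ξ k.castSucc = ξ k.succ →
          |legO O k c S p g v ξ j (evec p d)| ≤ B * ‖ξ‖ * H879.cst p d)) ∧
      |legO O k c S p g v (alc k) j (evec p d)| ≤
        B * ((Real.sqrt (p.2.2.1 ()))⁻¹ * H879.cst p d)

theorem isCl_alc (k : Fin 5) : IsCl (alc k) := by
  unfold IsCl
  rw [Fin.sum_univ_six]
  fin_cases k <;> simp [alc] <;> norm_num

theorem adm_mono {k : Fin 5} {U U' : Set C6} {c M : ℝ} {q : C6} {d : ℂ} (h : Adm k U c M q d)
    (hU : U ⊆ U') : Adm k U' c M q d := { h with qU := hU h.qU }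

section Neck

variable {O : One} {k : Fin 5} {c : ℝ} {S : L → Bool} {p : Co1 R m} {g : ℂ} {v : L → ℂ} {j : L}

/-- the three bounds of a neck mark -/
theorem neck_bounds {B : ℝ} (hB : 0 < B) (hp : (wr R m).Inr p) (hy : 1 ≤ p.2.2.1 ())
    (hc : 0 < c) (h1 : c ≤ 1) (hS : S j = false) (hj : R.nk j = true)
    (h : (∀ (δ : C6) (lX lY : ℂ) (ξ : Fin 6 → ℝ), IsCl ξ →
      |O.η ξ false (bd k (qb k p) (zh c p), xn k (qb k p) (Xj c p j) (Yj c p j))
        (R.sht (toSp c p) g v j) (nv k δ (zh c p) (Xj c p j) (Yj c p j) lX lY)| ≤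
        B * ‖ξ‖ * (‖δ‖ + ‖lX‖ + ‖lY‖) ∧
      (ξ k.castSucc = ξ k.succ →
        |O.η ξ false (bd k (qb k p) (zh c p), xn k (qb k p) (Xj c p j) (Yj c p j))
          (R.sht (toSp c p) g v j) (nv k δ (zh c p) (Xj c p j) (Yj c p j) lX lY)| ≤
          B * ‖ξ‖ * (‖δ‖ + (‖Xj c p j‖ + (yl c (zh c p))⁻¹) * ‖lX‖ +
            (‖Yj c p j‖ + (yl c (zh c p))⁻¹) * ‖lY‖)) ∧
      |O.η (alc k) false (bd k (qb k p) (zh c p), xn k (qb k p) (Xj c p j) (Yj c p j))
        (R.sht (toSp c p) g v j) (nv k δ (zh c p) (Xj c p j) (Yj c p j) lX lY)| ≤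
        B * (yl c (zh c p))⁻¹ * (‖δ‖ + ‖lX‖ + ‖lY‖)) ∧
    ∀ (ξ : Fin 6 → ℝ), IsCl ξ →
      |O.η ξ false (bd k (qb k p) (zh c p), xn k (qb k p) (Xj c p j) (Yj c p j))
        (R.sht (toSp c p) g v j) (nv k 0 (zh c p) (Xj c p j) (Yj c p j)
        (((yl c (zh c p))⁻¹ * Real.log (‖Xj c p j‖ / c) : ℝ) : ℂ)
        (((yl c (zh c p))⁻¹ * Real.log (‖Yj c p j‖ / c) : ℝ) : ℂ))| ≤
        B * ‖ξ‖ * (yl c (zh c p))⁻¹ ∧
      |O.η (alc k) false (bd k (qb k p) (zh c p), xn k (qb k p) (Xj c p j) (Yj c p j))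
        (R.sht (toSp c p) g v j) (nv k 0 (zh c p) (Xj c p j) (Yj c p j)
        (((yl c (zh c p))⁻¹ * Real.log (‖Xj c p j‖ / c) : ℝ) : ℂ)
        (((yl c (zh c p))⁻¹ * Real.log (‖Yj c p j‖ / c) : ℝ) : ℂ))| ≤
        B * ((yl c (zh c p))⁻¹) ^ 2) (d : Dir1 R m) :
    (∀ ξ : Fin 6 → ℝ, IsCl ξ →
        |legO O k c S p g v ξ j (evec p d)| ≤
          33 * B * ‖ξ‖ * (Real.sqrt (p.2.2.1 ()) * H879.cst p d) ∧
        (ξ k.castSucc = ξ k.succ →
          |legO O k c S p g v ξ j (evec p d)| ≤ 33 * B * ‖ξ‖ * H879.cst p d)) ∧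
      |legO O k c S p g v (alc k) j (evec p d)| ≤
        33 * B * ((Real.sqrt (p.2.2.1 ()))⁻¹ * H879.cst p d) := by
  have hyl : yl c (zh c p) = p.2.2.1 () := yl_zh hc p
  rw [hyl] at h
  have hy0 : 0 < p.2.2.1 () := by linarith
  have h0 := H401.Ch1.cst_nonneg (p := p) hy0.le d
  have hs0 := Real.sqrt_nonneg (p.2.2.1 ())
  rcases NE_or d with hd | hd
  · have t0 := H828.neck_T0 hp hy k (R.rk j) hd
    have t1 := neck_T1 hp hy hc h1 k hj hd
    have t2 := H828.neck_T2 hp hy k (R.rk j) hd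
    refine ⟨fun ξ hξ => ?_, ?_⟩
    · rw [legO_neck hS hj]
      obtain ⟨b0, b1, -⟩ := h.1 (qb k (evec p d)) (lX R m (R.rk j) (evec p d))
        (lY R m (R.rk j) (evec p d)) ξ hξ
      have hBx : 0 ≤ B * ‖ξ‖ := by positivity
      refine ⟨b0.trans ?_, fun hk => (b1 hk).trans ?_⟩
      · have := mul_le_mul_of_nonneg_left t0 hBx
        have h3 : 0 ≤ B * ‖ξ‖ * (Real.sqrt (p.2.2.1 ()) * H879.cst p d) := by positivity
        nlinarith
      · have := mul_le_mul_of_nonneg_left t1 hBx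
        nlinarith
    · rw [legO_neck hS hj]
      obtain ⟨-, -, b2⟩ := h.1 (qb k (evec p d)) (lX R m (R.rk j) (evec p d))
        (lY R m (R.rk j) (evec p d)) (alc k) (isCl_alc k)
      refine b2.trans ?_
      have := mul_le_mul_of_nonneg_left t2 hB.le
      have h3 : 0 ≤ B * ((Real.sqrt (p.2.2.1 ()))⁻¹ * H879.cst p d) := by positivity
      nlinarith
  · subst hd
    have e0 : evec p (.y ()) = (wr R m).eul p () := rfl
    have eX := H828.lX_eul (R := R) (m := m) hc hj (p := p) hy0.ne'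
    have eY := H828.lY_eul (R := R) (m := m) hc hj (p := p) hy0.ne'
    have eq := H828.qb_y (R := R) (m := m) k p
    have t0 := H828.eul_T0 (R := R) (m := m) (p := p) hy
    have t2 := H828.eul_T2 (R := R) (m := m) (p := p) hy
    refine ⟨fun ξ hξ => ?_, ?_⟩
    · rw [legO_neck hS hj, e0, eX, eY, eq]
      have b := (h.2 ξ hξ).1
      have hBx : 0 ≤ B * ‖ξ‖ := by positivity
      refine ⟨b.trans ?_, fun _ => b.trans ?_⟩
      · have := mul_le_mul_of_nonneg_left t0 hBx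
        have h3 : 0 ≤ B * ‖ξ‖ * (Real.sqrt (p.2.2.1 ()) * H879.cst p (.y ())) := by positivity
        nlinarith
      · have h3 : (p.2.2.1 ())⁻¹ = H879.cst p (.y ()) := rfl
        rw [h3]
        have h4 : 0 ≤ B * ‖ξ‖ * H879.cst p (.y ()) := by positivity
        nlinarith
    · rw [legO_neck hS hj, e0, eX, eY, eq]
      have b := (h.2 (alc k) (isCl_alc k)).2
      refine b.trans ?_
      have := mul_le_mul_of_nonneg_left t2 hB.le
      have h3 : 0 ≤ B * ((Real.sqrt (p.2.2.1 ()))⁻¹ * H879.cst p (.y ())) := by positivity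
      nlinarith

/-- the three bounds of a core mark -/
theorem core_bounds {B : ℝ} (hB : 0 < B) (hy : 1 ≤ p.2.2.1 ())
    (hc : 0 < c) (hj : R.nk j = false)
    (h : ∀ (δ : C6) (lam dz : ℂ) (ξ : Fin 6 → ℝ), IsCl ξ →
      |O.η ξ (S j) (bd k (qb k p) (zh c p), R.pos (toSp c p) j) (R.sht (toSp c p) g v j)
        (bw k δ (zh c p) lam, dz)| ≤
        B * ‖ξ‖ * (‖δ‖ + ‖dz‖ + (yl c (zh c p))⁻¹ * ‖lam‖ + |lam.im|) ∧
      (ξ k.castSucc = ξ k.succ →
        |O.η ξ (S j) (bd k (qb k p) (zh c p), R.pos (toSp c p) j) (R.sht (toSp c p) g v j)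
          (bw k δ (zh c p) lam, dz)| ≤
          B * ‖ξ‖ * (‖δ‖ + ‖dz‖ + (yl c (zh c p))⁻¹ * ‖lam‖)) ∧
      |O.η (alc k) (S j) (bd k (qb k p) (zh c p), R.pos (toSp c p) j) (R.sht (toSp c p) g v j)
        (bw k δ (zh c p) lam, dz)| ≤
        B * (yl c (zh c p))⁻¹ * (‖δ‖ + ‖dz‖ + (yl c (zh c p))⁻¹ * ‖lam‖)) (d : Dir1 R m) :
    (∀ ξ : Fin 6 → ℝ, IsCl ξ →
        |legO O k c S p g v ξ j (evec p d)| ≤
          33 * B * ‖ξ‖ * (Real.sqrt (p.2.2.1 ()) * H879.cst p d) ∧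
        (ξ k.castSucc = ξ k.succ →
          |legO O k c S p g v ξ j (evec p d)| ≤ 33 * B * ‖ξ‖ * H879.cst p d)) ∧
      |legO O k c S p g v (alc k) j (evec p d)| ≤
        33 * B * ((Real.sqrt (p.2.2.1 ()))⁻¹ * H879.cst p d) := by
  have hyl : yl c (zh c p) = p.2.2.1 () := yl_zh hc p
  rw [hyl] at h
  have hy0 : 0 < p.2.2.1 () := by linarith
  have hi0 : 0 ≤ (p.2.2.1 ())⁻¹ := (inv_pos.2 hy0).le
  have hi1 : (p.2.2.1 ())⁻¹ ≤ 1 := inv_le_one_of_one_le₀ hy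
  have h0 := H401.Ch1.cst_nonneg (p := p) hy0.le d
  have hs1 : 1 ≤ Real.sqrt (p.2.2.1 ()) := H213.one_le_sqrt_y hy
  have hs0 : 0 < Real.sqrt (p.2.2.1 ()) := by linarith
  have hic := inv_le_cst hy d
  have nl : ‖lam R m (evec p d) / 2‖ ≤ 1 := by
    rw [norm_div, Complex.norm_ofNat]
    have := norm_lam_le_one (p := p) d
    linarith
  have nq := H828.norm_qb_evec_le (p := p) k hy d
  have nz := norm_dz_le hy d (Sum.inl ⟨j, hj⟩)
  have nl' : (p.2.2.1 ())⁻¹ * ‖lam R m (evec p d) / 2‖ ≤ H879.cst p d :=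
    (mul_le_of_le_one_right hi0 nl).trans hic
  -- the sum without the angle
  have s1 : ‖qb k (evec p d)‖ + ‖(evec p d).2.2.2.2 (Sum.inl ⟨j, hj⟩)‖ +
      (p.2.2.1 ())⁻¹ * ‖lam R m (evec p d) / 2‖ ≤ 3 * H879.cst p d := by linarith
  have s0 : ‖qb k (evec p d)‖ + ‖(evec p d).2.2.2.2 (Sum.inl ⟨j, hj⟩)‖ +
      (p.2.2.1 ())⁻¹ * ‖lam R m (evec p d) / 2‖ + |(lam R m (evec p d) / 2).im| ≤
      4 * (Real.sqrt (p.2.2.1 ()) * H879.cst p d) := by
    have h3 : H879.cst p d ≤ Real.sqrt (p.2.2.1 ()) * H879.cst p d :=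
      le_mul_of_one_le_left h0 hs1
    rcases NE_or d with hd | hd
    · have h4 := H828.one_le_sqrt_mul_cst hy hd
      have h5 := (Complex.abs_im_le_norm (lam R m (evec p d) / 2)).trans nl
      linarith
    · subst hd
      have e : lam R m (evec p (.y ())) = -1 := H828.lam_y p
      have h5 : (lam R m (evec p (.y ())) / 2).im = 0 := by
        rw [e]
        norm_num
      rw [h5, abs_zero, add_zero]
      linarith
  have s2 : (p.2.2.1 ())⁻¹ * (‖qb k (evec p d)‖ + ‖(evec p d).2.2.2.2 (Sum.inl ⟨j, hj⟩)‖ +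
      (p.2.2.1 ())⁻¹ * ‖lam R m (evec p d) / 2‖) ≤
      3 * ((Real.sqrt (p.2.2.1 ()))⁻¹ * H879.cst p d) := by
    have h3 : (p.2.2.1 ())⁻¹ ≤ (Real.sqrt (p.2.2.1 ()))⁻¹ := by
      have := H401.Ch1.inv_le_sqrt_inv hy
      rwa [Real.sqrt_inv] at this
    calc _ ≤ (p.2.2.1 ())⁻¹ * (3 * H879.cst p d) := mul_le_mul_of_nonneg_left s1 hi0
      _ ≤ (Real.sqrt (p.2.2.1 ()))⁻¹ * (3 * H879.cst p d) :=
        mul_le_mul_of_nonneg_right h3 (by positivity)
      _ = _ := by ring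
  refine ⟨fun ξ hξ => ?_, ?_⟩
  · rw [legO_core hj]
    obtain ⟨b0, b1, -⟩ := h (qb k (evec p d)) (lam R m (evec p d) / 2)
      ((evec p d).2.2.2.2 (Sum.inl ⟨j, hj⟩)) ξ hξ
    have hBx : 0 ≤ B * ‖ξ‖ := by positivity
    refine ⟨b0.trans ?_, fun hk => (b1 hk).trans ?_⟩
    · have := mul_le_mul_of_nonneg_left s0 hBx
      have h3 : 0 ≤ B * ‖ξ‖ * (Real.sqrt (p.2.2.1 ()) * H879.cst p d) := by positivity
      nlinarith
    · have := mul_le_mul_of_nonneg_left s1 hBx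
      have h3 : 0 ≤ B * ‖ξ‖ * H879.cst p d := by positivity
      nlinarith
  · rw [legO_core hj]
    obtain ⟨-, -, b2⟩ := h (qb k (evec p d)) (lam R m (evec p d) / 2)
      ((evec p d).2.2.2.2 (Sum.inl ⟨j, hj⟩)) (alc k) (isCl_alc k)
    refine b2.trans ?_
    have := mul_le_mul_of_nonneg_left s2 hB.le
    have h3 : 0 ≤ B * ((Real.sqrt (p.2.2.1 ()))⁻¹ * H879.cst p d) := by positivity
    nlinarith

end Neck

/-- **the legs of the one mark form** -/
theorem etaLegs_of {O : One} (hN : NeckO O) (hC : CoreO O) : EtaLegs O := by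
  intro k q₀ hq₀
  obtain ⟨U1, hU1, δ, hδ, hbd⟩ := exists_bd_mem k hq₀
  obtain ⟨U2, hU2, c₀, hc₀, hN⟩ := hN k q₀ hq₀
  obtain ⟨U3, hU3, R₁, hR₁, hC⟩ := hC k q₀ hq₀
  refine ⟨U1 ∩ (U2 ∩ U3), inter_mem hU1 (inter_mem hU2 hU3), min c₀ 1, lt_min hc₀ one_pos,
    fun c hc hcc => ⟨R₁, hR₁, fun R₀ hR₀ => ?_⟩⟩
  have hc1 : c ≤ 1 := hcc.trans (min_le_right _ _)
  obtain ⟨M1, B1, hM1, hB1, hN⟩ := hN c hc (hcc.trans (min_le_left _ _))
  obtain ⟨M2, B2, hM2, hB2, hC⟩ := hC c hc R₀ hR₀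
  obtain ⟨M3, hM3⟩ : ∃ M3 : ℝ, c * Real.exp (-M3 / 2) < δ := by
    refine ⟨-(2 * Real.log (δ / (2 * c))), ?_⟩
    have e : -(-(2 * Real.log (δ / (2 * c)))) / 2 = Real.log (δ / (2 * c)) := by ring
    rw [e, Real.exp_log (by positivity)]
    have e2 : c * (δ / (2 * c)) = δ / 2 := by field_simp
    rw [e2]
    linarith
  refine ⟨max (max M1 M2) (max M3 1), 33 * (B1 + B2), ?_, by positivity, ?_⟩
  · exact lt_max_of_lt_right (lt_max_of_lt_right one_pos)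
  intro R m S p g v hp j d
  have hM : c * Real.exp (-(max (max M1 M2) (max M3 1)) / 2) < δ := by
    refine lt_of_le_of_lt ?_ hM3
    have : M3 ≤ max (max M1 M2) (max M3 1) := (le_max_left _ _).trans (le_max_right _ _)
    gcongr
  have hK : (U1 ∩ (U2 ∩ U3)) ∩ H828.XD k ⊆ U1 ∩ H828.XD k :=
    fun q hq => ⟨hq.1.1, hq.2⟩
  have hKD : (U1 ∩ (U2 ∩ U3)) ∩ H828.XD k ⊆ H828.XD k := fun q hq => hq.2
  have hy : 1 ≤ p.2.2.1 () := ((le_max_right _ _).trans (le_max_right _ _)).trans hp.y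
  have hA : ∀ M, M ≤ max (max M1 M2) (max M3 1) →
      Adm k (U1 ∩ (U2 ∩ U3)) c M (qb k p) (zh c p) := fun M hMM =>
    adm_of hc (fun q hq => hbd q hq.1) hM hMM (fun q hq => hq) hp
  have hcst := H401.Ch1.cst_nonneg (p := p) (by linarith) d
  have hBB : ∀ {B x : ℝ}, B ≤ B1 + B2 → 0 ≤ x → 33 * B * x ≤ 33 * (B1 + B2) * x :=
    fun h hx => mul_le_mul_of_nonneg_right (by linarith) hx
  have fin : ∀ {B : ℝ}, B ≤ B1 + B2 →
      ((∀ ξ : Fin 6 → ℝ, IsCl ξ →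
        |legO O k c S p g v ξ j (evec p d)| ≤
          33 * B * ‖ξ‖ * (Real.sqrt (p.2.2.1 ()) * H879.cst p d) ∧
        (ξ k.castSucc = ξ k.succ →
          |legO O k c S p g v ξ j (evec p d)| ≤ 33 * B * ‖ξ‖ * H879.cst p d)) ∧
      |legO O k c S p g v (alc k) j (evec p d)| ≤
        33 * B * ((Real.sqrt (p.2.2.1 ()))⁻¹ * H879.cst p d)) →
      ((∀ ξ : Fin 6 → ℝ, IsCl ξ →
        |legO O k c S p g v ξ j (evec p d)| ≤
          33 * (B1 + B2) * ‖ξ‖ * (Real.sqrt (p.2.2.1 ()) * H879.cst p d) ∧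
        (ξ k.castSucc = ξ k.succ →
          |legO O k c S p g v ξ j (evec p d)| ≤ 33 * (B1 + B2) * ‖ξ‖ * H879.cst p d)) ∧
      |legO O k c S p g v (alc k) j (evec p d)| ≤
        33 * (B1 + B2) * ((Real.sqrt (p.2.2.1 ()))⁻¹ * H879.cst p d)) := by
    intro B hB h
    refine ⟨fun ξ hξ => ⟨(h.1 ξ hξ).1.trans ?_, fun hk => ((h.1 ξ hξ).2 hk).trans ?_⟩,
      h.2.trans (hBB hB (by positivity))⟩
    · rw [mul_assoc, mul_assoc (33 * (B1 + B2))]
      exact hBB hB (by positivity)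
    · rw [mul_assoc, mul_assoc (33 * (B1 + B2))]
      exact hBB hB (by positivity)
  rcases Bool.eq_false_or_eq_true (R.nk j) with hj | hj
  · refine fin (B := B1) (by linarith) (neck_bounds hB1 hp.inr hy hc hc1 (S_neck hp hj) hj ?_ d)
    exact hN _ _ (adm_mono (hA M1 ((le_max_left _ _).trans (le_max_left _ _)))
      fun q hq => hq.2.1) _ _ _ (inNeck_of hc hc1 (by positivity) hKD hp hj)
  · refine fin (B := B2) (by linarith) (core_bounds hB2 hy hc hj ?_ d)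
    exact hC _ _ (adm_mono (hA M2 ((le_max_right _ _).trans (le_max_left _ _)))
      fun q hq => hq.2.2) _ _ _ (inCore_of hKD hp hj)

end Vale.Agent.P273.H205

end
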